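import Vale.Agent.P271.H27.Ord
import Vale.Agent.P271.H112.JetPS
import Vale.Agent.P271.H242.CminES

/-!
# P271 / H27 (row CONC): the sections of order `> μ` at a point have codimension `≥ (m/D)^n`
(helper27)
-/

open Metric Set Topology Filter Asymptotics Module

namespace Vale.Agent.P271.H27

open Vale.Agent.P271.Sch Vale.Agent.P271.H741

variable {n : ℕ} {C : GCone n} {φ : C.Pt}

/-- The elements of `V` which vanish to order `> μ` at the centre of the chart `c`. -/
def ordSub {r : ℕ} (c : Chart φ r) (V : Submodule ℂ C.R) (μ : ℕ) : Submodule ℂ V where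
  carrier := {s | (fun x => c.ψ x (s : C.R)) =O[𝓝 0] (fun x => ‖x‖ ^ (μ + 1))}
  zero_mem' := by
    simp only [mem_ofPred_eq, ZeroMemClass.coe_zero, map_zero]
    exact isBigO_zero _ _
  add_mem' := by
    intro a b ha hb
    simp only [mem_ofPred_eq, Submodule.coe_add, map_add] at ha hb ⊢
    exact ha.add hb
  smul_mem' := by
    intro t a ha
    simp only [mem_ofPred_eq, Submodule.coe_smul, map_smul] at ha ⊢
    exact ha.const_smul_left t

theorem mem_ordSub {r : ℕ} {c : Chart φ r} {V : Submodule ℂ C.R} {μ : ℕ} {s : V} :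
    s ∈ ordSub c V μ ↔ (fun x => c.ψ x (s : C.R)) =O[𝓝 0] (fun x => ‖x‖ ^ (μ + 1)) := Iff.rfl

/-- exponent vectors of degree `n q` in `n + 1` variables -/
noncomputable def mon (n q : ℕ) (e : Fin n → Fin (q + 1)) : Fin (n + 1) →₀ ℕ :=
  Finsupp.equivFunOnFinite.symm
    (Fin.cons (n * q - ∑ i, (e i : ℕ)) (fun i => (e i : ℕ)) : Fin (n + 1) → ℕ)

theorem mon_injective (n q : ℕ) : Function.Injective (mon n q) := by
  intro e e' h
  funext i
  have h1 := DFunLike.congr_fun h i.succ
  simp only [mon, Finsupp.equivFunOnFinite_symm_apply_apply, Fin.cons_succ] at h1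
  exact Fin.ext h1

theorem sum_le (n q : ℕ) (e : Fin n → Fin (q + 1)) : ∑ i, (e i : ℕ) ≤ n * q := by
  calc ∑ i, (e i : ℕ) ≤ ∑ _i : Fin n, q := Finset.sum_le_sum fun i _ => by
        have := (e i).2
        omega
    _ = n * q := by simp

theorem mon_degree (n q : ℕ) (e : Fin n → Fin (q + 1)) : ∑ i, mon n q e i = n * q := by
  have h := sum_le n q e
  rw [Fin.sum_univ_succ]
  simp only [mon, Finsupp.equivFunOnFinite_symm_apply_apply, Fin.cons_zero, Fin.cons_succ]
  omega

/-- the polynomial with coefficients `a` -/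
noncomputable def pol (n q : ℕ) :
    ((Fin n → Fin (q + 1)) → ℂ) →ₗ[ℂ] MvPolynomial (Fin (n + 1)) ℂ where
  toFun a := ∑ e, MvPolynomial.monomial (mon n q e) (a e)
  map_add' a b := by
    simp only [Pi.add_apply, map_add, Finset.sum_add_distrib]
  map_smul' t a := by
    simp only [Pi.smul_apply, RingHom.id_apply, Finset.smul_sum, MvPolynomial.smul_monomial]

theorem pol_apply (n q : ℕ) (a : (Fin n → Fin (q + 1)) → ℂ) :
    pol n q a = ∑ e, MvPolynomial.monomial (mon n q e) (a e) := rfl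

theorem pol_injective (n q : ℕ) : Function.Injective (pol n q) := by
  classical
  rw [← LinearMap.ker_eq_bot, LinearMap.ker_eq_bot']
  intro a ha
  funext e
  have h1 := congrArg (MvPolynomial.coeff (mon n q e)) ha
  rw [pol_apply, MvPolynomial.coeff_sum] at h1
  simp only [MvPolynomial.coeff_monomial] at h1
  rw [Finset.sum_eq_single e] at h1
  · simpa using h1
  · intro e' _ he'
    rw [if_neg fun h => he' (mon_injective n q h)]
  · simp

theorem totalDegree_pol (n q : ℕ) (a : (Fin n → Fin (q + 1)) → ℂ) :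
    (pol n q a).totalDegree ≤ n * q := by
  rw [pol_apply]
  refine MvPolynomial.totalDegree_finsetSum_le fun e _ => ?_
  refine (MvPolynomial.totalDegree_monomial_le _ _).trans (le_of_eq ?_)
  rw [Finsupp.sum_fintype _ _ (fun _ => rfl)]
  exact mon_degree n q e

theorem aeval_pol_mem {N : ℕ} {z : Fin (n + 1) → C.R} (hz : ∀ i, z i ∈ C.A N) (q : ℕ)
    (a : (Fin n → Fin (q + 1)) → ℂ) : MvPolynomial.aeval z (pol n q a) ∈ C.A (n * q * N) := by
  rw [pol_apply, map_sum]
  refine Submodule.sum_mem _ fun e _ => ?_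
  rw [MvPolynomial.aeval_monomial, ← Algebra.smul_def]
  refine Submodule.smul_mem _ _ ?_
  rw [Finsupp.prod_fintype _ _ (fun _ => pow_zero _)]
  have h1 := SetLike.prod_pow_mem_graded C.A (fun _ : Fin (n + 1) => N) z (fun i => mon n q e i)
    (F := Finset.univ) (fun i _ => hz i)
  rw [← Finset.sum_smul, mon_degree, smul_eq_mul] at h1
  exact h1

/-- **Codimension of the sections of order `> μ`.** -/
theorem finrank_ordSub_add_le (c : Chart φ (n + 1)) {N : ℕ} {z : Fin (n + 1) → C.R}
    (hz : ∀ i, z i ∈ C.A N)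
    (hinj : Function.Injective (fderiv ℂ (fun x i => c.ψ x (z i)) 0))
    {k q m μ : ℕ} {g : C.R} (hg : g ∈ C.A k) (hφg : φ g ≠ 0) (hm : n * q * N + k = m)
    (hμ : n * q ≤ μ) [FiniteDimensional ℂ (C.A m)] :
    finrank ℂ (ordSub c (C.A m) μ) + (q + 1) ^ n ≤ finrank ℂ (C.A m) := by
  classical
  have hmem : ∀ a, MvPolynomial.aeval z (pol n q a) * g ∈ C.A m := by
    intro a
    rw [← hm]
    exact SetLike.GradedMul.mul_mem (aeval_pol_mem hz q a) hg
  let L : ((Fin n → Fin (q + 1)) → ℂ) →ₗ[ℂ] C.A m :=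
    { toFun := fun a => ⟨MvPolynomial.aeval z (pol n q a) * g, hmem a⟩
      map_add' := fun a b => by
        ext
        simp [add_mul]
      map_smul' := fun t a => by
        ext
        simp }
  have hL : ∀ a, L a ∈ ordSub c (C.A m) μ → a = 0 := by
    intro a ha
    rw [mem_ordSub] at ha
    have h1 : (fun x => c.ψ x (MvPolynomial.aeval z (pol n q a) * g)) =O[𝓝 0]
        (fun x => ‖x‖ ^ (n * q + 1)) := by
      refine IsBigO.trans ha ?_
      refine IsBigO.of_bound 1 ?_
      have h2 : ∀ᶠ x in 𝓝 (0 : Fin (n + 1) → ℂ), ‖x‖ < 1 := by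
        have : Tendsto (fun x : Fin (n + 1) → ℂ => ‖x‖) (𝓝 0) (𝓝 ‖(0 : Fin (n + 1) → ℂ)‖) :=
          continuous_norm.tendsto 0
        rw [norm_zero] at this
        exact this.eventually_lt_const one_pos
      filter_upwards [h2] with x hx
      rw [norm_pow, norm_pow, norm_norm, one_mul]
      exact pow_le_pow_of_le_one (norm_nonneg _) hx.le (by omega)
    have h3 := eq_zero_of_ord c hinj (totalDegree_pol n q a) hφg h1
    exact pol_injective n q (by rw [h3, map_zero])
  have hinj2 : Function.Injective ((ordSub c (C.A m) μ).mkQ.comp L) := by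
    rw [← LinearMap.ker_eq_bot, LinearMap.ker_eq_bot']
    intro a ha
    rw [LinearMap.comp_apply, Submodule.mkQ_apply, Submodule.Quotient.mk_eq_zero] at ha
    exact hL a ha
  have h4 := LinearMap.finrank_le_finrank_of_injective hinj2
  rw [Module.finrank_fintype_fun_eq_card, Fintype.card_fun, Fintype.card_fin, Fintype.card_fin]
    at h4
  have h5 := Submodule.finrank_quotient_add_finrank (ordSub c (C.A m) μ)
  omega

/-- Elements of every large degree not vanishing at the point. -/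
theorem exists_mem_ne_zero (hφ : GCone.NV φ) :
    ∃ k₀ : ℕ, ∀ k ≥ k₀, ∃ g ∈ C.A k, φ g ≠ 0 := by
  obtain ⟨k, e, he, e', he', h1, h2⟩ := H112.exists_pair φ hφ
  refine ⟨k * k, fun M hM => ?_⟩
  obtain ⟨a, b, hab⟩ := H989.exists_rep k M hM
  refine ⟨e ^ a * e' ^ b, ?_, ?_⟩
  · have h3 : e ^ a ∈ C.A (a • k) := SetLike.pow_mem_graded a he
    have h4 : e' ^ b ∈ C.A (b • (k + 1)) := SetLike.pow_mem_graded b he'
    have h5 := SetLike.GradedMul.mul_mem h3 h4
    rw [smul_eq_mul, smul_eq_mul, hab] at h5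
    exact h5
  · rw [map_mul, map_pow, map_pow]
    exact mul_ne_zero (pow_ne_zero _ h1) (pow_ne_zero _ h2)

/-- For every `K` there is `D` such that for large `m` the sections of degree `m` of order `> μ`,
for some `μ` with `K (μ + 1) ≤ m`, have codimension `≥ (m / D)^n`. -/
theorem exists_codim (hn : 1 ≤ n) (hφ : GCone.NV φ) (c : Chart φ (n + 1)) (K : ℕ) :
    ∃ D : ℕ, 0 < D ∧ ∃ m₀ : ℕ, ∀ m ≥ m₀, ∀ [FiniteDimensional ℂ (C.A m)],
      ∃ μ : ℕ, K * (μ + 1) ≤ m ∧
        (finrank ℂ (ordSub c (C.A m) μ) : ℝ) + ((m : ℝ) / D) ^ n ≤ finrank ℂ (C.A m) := by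
  obtain ⟨N, hN, hz⟩ := H989.exists_noether C φ hφ
  obtain ⟨z, hzA, hzφ, hfin, hinj, hdl⟩ := hz N hN dvd_rfl
  have hder := H242.injective_fderiv c hdl
  obtain ⟨k₀, hk⟩ := exists_mem_ne_zero hφ
  refine ⟨2 * n * N * (K + 1), by positivity, 2 * k₀ + 2 * K, fun m hm _ => ?_⟩
  set D := 2 * n * N * (K + 1) with hD
  have hDpos : 0 < D := by positivity
  set q := m / D with hq
  have hqm : D * q ≤ m := by
    rw [hq]; exact Nat.mul_div_le m D
  have h1 : 2 * (n * q * N) * (K + 1) ≤ m := by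
    calc 2 * (n * q * N) * (K + 1) = D * q := by rw [hD]; ring
      _ ≤ m := hqm
  have h2 : 2 * (n * q * N) ≤ m := le_trans (Nat.le_mul_of_pos_right _ (Nat.succ_pos _)) h1
  have h3 : n * q ≤ n * q * N := Nat.le_mul_of_pos_right _ hN
  obtain ⟨g, hg, hφg⟩ := hk (m - n * q * N) (by omega)
  refine ⟨n * q, ?_, ?_⟩
  · have h4 : 2 * (K * (n * q)) ≤ m := by
      calc 2 * (K * (n * q)) ≤ 2 * ((K + 1) * (n * q * N)) := by
            gcongr
            omega
        _ = 2 * (n * q * N) * (K + 1) := by ring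
        _ ≤ m := h1
    rw [Nat.mul_add, Nat.mul_one]
    omega
  · have h5 := finrank_ordSub_add_le c hzA hder (k := m - n * q * N) (q := q) (m := m)
      (μ := n * q) hg hφg (by omega) le_rfl
    have h6 : ((m : ℝ) / D) ^ n ≤ ((q : ℝ) + 1) ^ n := by
      refine pow_le_pow_left₀ (by positivity) ?_ n
      rw [div_le_iff₀ (by exact_mod_cast hDpos)]
      have h7 : m < D * (q + 1) := by
        rw [hq]; exact Nat.lt_mul_div_succ m hDpos
      have h8 : (m : ℝ) < D * (q + 1) := by exact_mod_cast h7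
      linarith [h8]
    have h9 : (finrank ℂ (ordSub c (C.A m) (n * q)) : ℝ) + ((q : ℝ) + 1) ^ n ≤
        finrank ℂ (C.A m) := by exact_mod_cast h5
    linarith

end Vale.Agent.P271.H27
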