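import Vale.Agent.P271.H27.Conc
import Vale.Agent.P271.Main.FreeInst

/-!
# P271 / H27 / ConcStat : the field `conc` in the form of `Main/FreeInst.lean`
-/

set_option linter.all false

namespace Vale.Agent.P271.H27

open Module Filt Filt.Wt Chain Sch Inst Zorn Exp H43 H84 Drop Deg Ver Main

/-- **Field `conc`** exactly as asked by `Main/FreeInst.lean`. -/
theorem concStat {n : ℕ} {C : GCone n} [∀ k, FiniteDimensional ℂ (C.A k)] (hn : 1 ≤ n)
    (Sy : CSys C) (z : NVPt C) {m1 : ℕ} (hv : VerOK C.A m1) : ConcStat Sy z m1 :=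
  fun R hR => conc Sy z (Sy.P_ES z) hn hv R hR

/-- The same for the concrete system `csys C`. -/
theorem concStat_csys {n : ℕ} {C : GCone n} [∀ k, FiniteDimensional ℂ (C.A k)] (hn : 1 ≤ n)
    (z : NVPt C) {m1 : ℕ} (hv : VerOK C.A m1) : ConcStat (csys C) z m1 :=
  concStat hn (csys C) z hv

end Vale.Agent.P271.H27
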