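import Vale.Agent.P271.H242.CminES
import Vale.Agent.P271.Main.CSys

/-!
# P271 / H27 : the field `low` of `FreeBlocks` (helper27, from helper242's `cmin_extP`)
-/

open Module Finsupp

namespace Vale.Agent.P271.H27

open Vale.Agent.P271.Sch Vale.Agent.P271.H741 Vale.Agent.P271.Main Vale.Agent.P271.Inst
  Vale.Agent.P271.Exp Vale.Agent.P271.Filt Vale.Agent.P271.Filt.Wt Vale.Agent.P271.Chain
  Vale.Agent.P271.H43

variable {n : ℕ} {C : GCone n}

/-- Field `low` of `FreeBlocks`: the weights are bounded by the degree times the slope, uniformly in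
the level. -/
theorem low (S : CSys C) (z : NVPt C)
    (hES : (S.D z).P = ES (n + 1) (fun h : HM C => (h : C.R)) z.1) {m1 : ℕ} (hm1 : 0 < m1)
    [∀ k, FiniteDimensional ℂ (C.A k)] :
    ∃ c : ℝ, 0 < c ∧ ∃ T₀ : ℕ, ∀ T ≥ T₀, ∀ G : Wt ℂ (VA C m1 T), Dom (Hz C z.1 m1 T) G →
      ∀ x, x ≠ 0 → G.w x ≤ c * (m1 * T) * S.a z m1 T G := by
  obtain ⟨D, hD, hcm⟩ := H242.cmin_extP C z.2
  have hD' : (0 : ℝ) < D := by exact_mod_cast hD
  refine ⟨2 * D, by positivity, 1, fun T hT G hG x hx => ?_⟩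
  have hT' : (0 : ℝ) < T := by exact_mod_cast hT
  have hm' : (0 : ℝ) < m1 := by exact_mod_cast hm1
  have hGE : Dom (S.E.Hz z (VA C m1 T)) G := by
    rw [S.Hz_eq]; exact hG
  have hsl : VSl (S.E.P z) (VA C m1 T).subtype G.w (S.a z m1 T G) := by
    rw [← S.E.a_le_iff (V := VA C m1 T) HmOf_of_mem hGE]
    exact le_rfl
  have hpos : (0 : ℝ) < 2 * (D * ((m1 * T : ℕ) : ℝ)) := by
    push_cast
    positivity
  have h1 := hcm (m1 * T) (x : C.R) x.2 (by simpa using hx)
    (1 / (2 * (D * ((m1 * T : ℕ) : ℝ)))) (by positivity) (by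
      rw [one_div, mul_comm, ← div_eq_mul_inv, div_lt_one hpos]
      linarith)
  rw [← hES, ← S.P_eq] at h1
  have h2 := hsl (single x (1 / (2 * (D * ((m1 * T : ℕ) : ℝ))))) (single_nonneg' (by positivity))
    (by rw [Finsupp.mapDomain_single]; exact h1)
  rw [dot_single, one_div, ← div_eq_inv_mul, div_le_iff₀ hpos] at h2
  push_cast at h2
  linarith

end Vale.Agent.P271.H27
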