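import Vale.Agent.P271.H879.Ift
import Vale.Agent.P271.H741.Chart

/-!
# P271 / H27 (row CONC): polynomials of degree `≤ j` in étale homogeneous parameters do not vanish
to order `> j` (helper27)
-/

open Metric Set Topology Filter Asymptotics

namespace Vale.Agent.P271.H27

open Vale.Agent.P271.Sch Vale.Agent.P271.H741

/-- A polynomial in one variable of degree `≤ j` which is `O(t^(j+1))` at `0` vanishes. -/
theorem poly_eq_zero_of_isBigO {p : Polynomial ℂ} {j : ℕ} (hd : p.natDegree ≤ j)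
    (h : (fun t : ℂ => p.eval t) =O[𝓝 0] (fun t => ‖t‖ ^ (j + 1))) : p = 0 := by
  by_contra hp
  obtain ⟨q, hq, hndvd⟩ := Polynomial.exists_eq_pow_rootMultiplicity_mul_and_not_dvd p hp 0
  set k := p.rootMultiplicity 0 with hk
  have hkj : k ≤ j := by
    refine le_trans ?_ hd
    have h1 := Polynomial.card_roots' p
    have h2 : k ≤ Multiset.card p.roots := by
      rw [hk, ← Polynomial.count_roots]
      exact Multiset.count_le_card _ _
    exact h2.trans h1
  have hq0 : q.eval 0 ≠ 0 := by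
    intro h0
    exact hndvd (Polynomial.dvd_iff_isRoot.2 h0)
  obtain ⟨c, hc⟩ := h.bound
  -- off zero divide by `t^k`
  have h3 : ∀ᶠ t in 𝓝[≠] (0 : ℂ), ‖q.eval t‖ ≤ c * ‖t‖ ^ (j + 1 - k) := by
    have h4 : ∀ᶠ t in 𝓝[≠] (0 : ℂ), t ≠ 0 := eventually_mem_nhdsWithin
    filter_upwards [h4, hc.filter_mono nhdsWithin_le_nhds] with t ht0 ht
    have ht1 : 0 < ‖t‖ := norm_pos_iff.2 ht0
    rw [hq, Polynomial.eval_mul, Polynomial.eval_pow, Polynomial.eval_sub, Polynomial.eval_X,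
      Polynomial.eval_C, sub_zero, norm_mul, norm_pow, norm_pow, norm_norm] at ht
    have h5 : ‖t‖ ^ (j + 1) = ‖t‖ ^ k * ‖t‖ ^ (j + 1 - k) := by
      rw [← pow_add]; congr 1; omega
    rw [h5, ← mul_assoc, mul_comm c, mul_assoc] at ht
    exact le_of_mul_le_mul_left ht (pow_pos ht1 k)
  have h6 : Tendsto (fun t : ℂ => ‖q.eval t‖) (𝓝[≠] 0) (𝓝 ‖q.eval 0‖) :=
    ((q.continuous.tendsto 0).mono_left nhdsWithin_le_nhds).norm
  have h7 : Tendsto (fun t : ℂ => c * ‖t‖ ^ (j + 1 - k)) (𝓝[≠] 0) (𝓝 (c * 0)) := by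
    refine Tendsto.const_mul c ?_
    have h8 : Tendsto (fun t : ℂ => ‖t‖ ^ (j + 1 - k)) (𝓝 0) (𝓝 (‖(0 : ℂ)‖ ^ (j + 1 - k))) :=
      (continuous_norm.pow _).tendsto 0
    rw [norm_zero, zero_pow (by omega)] at h8
    exact h8.mono_left nhdsWithin_le_nhds
  rw [mul_zero] at h7
  have h9 := le_of_tendsto_of_tendsto h6 h7 h3
  exact hq0 (norm_le_zero_iff.1 h9)

/-- A polynomial of degree `≤ j` which vanishes to order `> j` at a point is zero. -/
theorem mvpoly_eq_zero_of_isBigO {r : ℕ} {P : MvPolynomial (Fin r) ℂ} {j : ℕ}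
    (hd : P.totalDegree ≤ j) {ζ : Fin r → ℂ}
    (h : (fun y => MvPolynomial.eval y P) =O[𝓝 ζ] (fun y => ‖y - ζ‖ ^ (j + 1))) : P = 0 := by
  refine MvPolynomial.funext fun y => ?_
  rw [map_zero]
  set v := y - ζ with hv
  set p : Polynomial ℂ :=
    MvPolynomial.aeval (fun i => Polynomial.C (ζ i) + Polynomial.C (v i) * Polynomial.X) P with hp
  have hdeg : p.natDegree ≤ j := by
    have h1 : ∀ i, (Polynomial.C (ζ i) + Polynomial.C (v i) * Polynomial.X).natDegree ≤ 1 := by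
      intro i
      refine (Polynomial.natDegree_add_le _ _).trans (max_le ?_ ?_)
      · rw [Polynomial.natDegree_C]; exact Nat.zero_le _
      · exact (Polynomial.natDegree_C_mul_le _ _).trans Polynomial.natDegree_X_le
    have h2 := MvPolynomial.aeval_natDegree_le P hd _ h1
    rwa [mul_one] at h2
  have heval : ∀ t : ℂ, p.eval t = MvPolynomial.eval (ζ + t • v) P := by
    intro t
    have h1 : Polynomial.aeval t p = MvPolynomial.aeval (fun i =>
        Polynomial.aeval t (Polynomial.C (ζ i) + Polynomial.C (v i) * Polynomial.X)) P :=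
      MvPolynomial.comp_aeval_apply _ (Polynomial.aeval t) P
    rw [Polynomial.coe_aeval_eq_eval] at h1
    rw [h1, MvPolynomial.aeval_eq_eval]
    have h2 : (fun i => Polynomial.eval t (Polynomial.C (ζ i) + Polynomial.C (v i) *
        Polynomial.X)) = ζ + t • v := by
      funext i
      simp
      ring
    rw [h2]
  have hbig : (fun t : ℂ => p.eval t) =O[𝓝 0] (fun t => ‖t‖ ^ (j + 1)) := by
    have ht : Tendsto (fun t : ℂ => ζ + t • v) (𝓝 0) (𝓝 ζ) := by
      have : Continuous fun t : ℂ => ζ + t • v := by fun_prop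
      simpa using this.tendsto 0
    have h1 := h.comp_tendsto ht
    refine (h1.congr_left fun t => ?_).trans ?_
    · exact (heval t).symm
    · refine IsBigO.of_bound (‖v‖ ^ (j + 1)) (Eventually.of_forall fun t => ?_)
      simp only [Function.comp_apply, add_sub_cancel_left, norm_smul, norm_pow, norm_mul,
        norm_norm]
      rw [mul_pow, mul_comm]
  have h0 := poly_eq_zero_of_isBigO hdeg hbig
  have h1 := heval 1
  rw [h0, Polynomial.eval_zero, one_smul, hv, add_sub_cancel] at h1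
  exact h1.symm

/-- The chart version. -/
theorem eq_zero_of_ord {R : Type} [CommRing R] [Algebra ℂ R] {φ : R →ₐ[ℂ] ℂ} {r : ℕ}
    (c : Chart φ r) {z : Fin r → R}
    (hinj : Function.Injective (fderiv ℂ (fun x i => c.ψ x (z i)) 0))
    {P : MvPolynomial (Fin r) ℂ} {j : ℕ} (hP : P.totalDegree ≤ j) {g : R} (hg : φ g ≠ 0)
    (h : (fun x => c.ψ x (MvPolynomial.aeval z P * g)) =O[𝓝 0] (fun x => ‖x‖ ^ (j + 1))) :
    P = 0 := by
  have h0 : (0 : Fin r → ℂ) ∈ ball (0 : Fin r → ℂ) c.ρ := mem_ball_self c.ρ_pos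
  set Z : (Fin r → ℂ) → (Fin r → ℂ) := fun x i => c.ψ x (z i) with hZ
  have hZa : AnalyticAt ℂ Z 0 := by
    rw [analyticAt_pi_iff]
    exact fun i => (c.holo (z i)) 0 h0
  have hZc : ContDiffAt ℂ 1 Z 0 := hZa.contDiffAt
  let e0 : (Fin r → ℂ) ≃ₗ[ℂ] (Fin r → ℂ) :=
    LinearEquiv.ofInjectiveEndo (fderiv ℂ Z 0 : (Fin r → ℂ) →ₗ[ℂ] (Fin r → ℂ)) hinj
  let e : (Fin r → ℂ) ≃L[ℂ] (Fin r → ℂ) := e0.toContinuousLinearEquiv
  have he : HasFDerivAt Z (e : (Fin r → ℂ) →L[ℂ] (Fin r → ℂ)) 0 := by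
    have h1 : (e : (Fin r → ℂ) →L[ℂ] (Fin r → ℂ)) = fderiv ℂ Z 0 := by
      ext v
      rfl
    rw [h1]
    exact hZa.differentiableAt.hasFDerivAt
  obtain ⟨ρ, W, O, hρ, hW0, hOo, hO0, hWd, hWZ, -⟩ := H879.exists_local_inverse hZc e he
  set ζ := Z 0 with hζ
  have hball : ball ζ ρ ∈ 𝓝 ζ := isOpen_ball.mem_nhds (mem_ball_self hρ)
  have hWdiff : DifferentiableAt ℂ W ζ := hWd.differentiableAt hball
  have hWt : Tendsto W (𝓝 ζ) (𝓝 0) := by
    have := hWdiff.continuousAt.tendsto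
    rwa [hW0] at this
  have hWO : W =O[𝓝 ζ] fun u => u - ζ := by
    have := hWdiff.isBigO_sub
    simpa [hW0] using this
  have h1 := h.comp_tendsto hWt
  have h2 : ((fun x : Fin r → ℂ => ‖x‖ ^ (j + 1)) ∘ W) =O[𝓝 ζ] fun u => ‖u - ζ‖ ^ (j + 1) := by
    have := (hWO.norm_norm).pow (j + 1)
    exact this
  have h3 := h1.trans h2
  have hGt : Tendsto (fun u => c.ψ (W u) g) (𝓝 ζ) (𝓝 (φ g)) := by
    have h4 : ContinuousAt (fun x => c.ψ x g) 0 := ((c.holo g) 0 h0).continuousAt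
    have h5 : Tendsto (fun x => c.ψ x g) (𝓝 0) (𝓝 (φ g)) := by
      have := h4.tendsto
      rwa [c.zero] at this
    exact h5.comp hWt
  have hGinv : (fun u => (c.ψ (W u) g)⁻¹) =O[𝓝 ζ] (fun _ => (1 : ℝ)) :=
    (hGt.inv₀ hg).isBigO_one ℝ
  have hGne : ∀ᶠ u in 𝓝 ζ, c.ψ (W u) g ≠ 0 := hGt.eventually_ne hg
  have h6 : (fun u => MvPolynomial.eval u P) =O[𝓝 ζ] (fun u => ‖u - ζ‖ ^ (j + 1)) := by
    have h7 := h3.mul hGinv
    refine (h7.congr_right fun u => mul_one _).congr' ?_ EventuallyEq.rfl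
    filter_upwards [hball, hGne] with u hu hne
    have h8 : c.ψ (W u) (MvPolynomial.aeval z P) = MvPolynomial.eval u P := by
      have h9 : c.ψ (W u) (MvPolynomial.aeval z P) =
          MvPolynomial.aeval (fun i => c.ψ (W u) (z i)) P :=
        MvPolynomial.comp_aeval_apply _ (c.ψ (W u)) P
      have h10 : (fun i => c.ψ (W u) (z i)) = u := (hWZ u hu).1
      rw [h9, MvPolynomial.aeval_eq_eval, h10]
    simp only [Function.comp_apply, map_mul, h8]
    rw [mul_assoc, mul_inv_cancel₀ hne, mul_one]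
  exact mvpoly_eq_zero_of_isBigO hP h6

end Vale.Agent.P271.H27
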